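import Vale.Agent.P237.Quant.TailData.N40.tailN40P0Part0
import Vale.Agent.P237.Quant.TailData.N40.tailN40P0Part1
import Vale.Agent.P237.Quant.TailData.N40.tailN40P0Part2
import Vale.Agent.P237.Quant.TailData.N40.tailN40P0Part3
import Vale.Agent.P237.Quant.TailData.N40.tailN40P0Part4
import Vale.Agent.P237.Quant.TailData.N40.tailN40P0Part5
import Vale.Agent.P237.Quant.TailData.N40.tailN40P0Part6

/-!
Tail calibration tailN40P0 in dimension 40. The check. Generated data, checked by the kernel.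
-/

set_option maxRecDepth 100000
set_option linter.all false

namespace Vale.Agent.P237.Quant.TailData

open TailCert


/-- The calibration. -/
noncomputable def tailN40P0 : Cfg :=
  tailN40P0Base.withIvals (List.flatten [tailN40P0L0, tailN40P0L1, tailN40P0L2, tailN40P0L3, tailN40P0L4, tailN40P0L5, tailN40P0L6, tailN40P0L7, tailN40P0L8, tailN40P0L9, tailN40P0L10, tailN40P0L11, tailN40P0L12, tailN40P0L13, tailN40P0L14, tailN40P0L15, tailN40P0L16, tailN40P0L17, tailN40P0L18, tailN40P0L19, tailN40P0L20, tailN40P0L21, tailN40P0L22, tailN40P0L23, tailN40P0L24])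

theorem tailN40P0_parts : [tailN40P0L0, tailN40P0L1, tailN40P0L2, tailN40P0L3, tailN40P0L4, tailN40P0L5, tailN40P0L6, tailN40P0L7, tailN40P0L8, tailN40P0L9, tailN40P0L10, tailN40P0L11, tailN40P0L12, tailN40P0L13, tailN40P0L14, tailN40P0L15, tailN40P0L16, tailN40P0L17, tailN40P0L18, tailN40P0L19, tailN40P0L20, tailN40P0L21, tailN40P0L22, tailN40P0L23, tailN40P0L24].Forall fun l => tailN40P0Base.partUsed tailN40P0Used l = true := by
  simp only [List.forall_cons, List.Forall]
  exact ⟨tailN40P0L0_ok, tailN40P0L1_ok, tailN40P0L2_ok, tailN40P0L3_ok, tailN40P0L4_ok, tailN40P0L5_ok, tailN40P0L6_ok, tailN40P0L7_ok, tailN40P0L8_ok, tailN40P0L9_ok, tailN40P0L10_ok, tailN40P0L11_ok, tailN40P0L12_ok, tailN40P0L13_ok, tailN40P0L14_ok, tailN40P0L15_ok, tailN40P0L16_ok, tailN40P0L17_ok, tailN40P0L18_ok, tailN40P0L19_ok, tailN40P0L20_ok, tailN40P0L21_ok, tailN40P0L22_ok, tailN40P0L23_ok, tailN40P0L24_ok⟩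

theorem tailN40P0_check : tailN40P0.check = true :=
  Cfg.check_of_parts (by decide +kernel) tailN40P0_parts

end Vale.Agent.P237.Quant.TailData
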